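import Vale.Agent.P207.N4.Dim
import Vale.Agent.P207.N4.H348.AcG
import Vale.Agent.P207.N4.Geo.OverA
import Vale.Agent.P207.N4.H732.BdX
import Vale.Agent.P207.N4.H732.HoldM

/-!
# P207, line N3, P2: absolute continuity for the closed 3-manifold
-/

open scoped Manifold ContDiff ENNReal NNReal Topology Matrix
open Bundle MeasureTheory Set Filter Metric

set_option maxSynthPendingDepth 3
set_option linter.unusedSectionVars false

noncomputable section

namespace Vale.Agent.P207.N4.H348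

open Vale.Agent.P207.N3 Vale.Agent.P207.N3.H348

variable [Dim]

open Vale.Agent.P255 (RMetric Npc)
open Vale.Agent.P207.Q Vale.Agent.P207.Q.H130
open H908 (mo rotE)
open H465 (Deck PB Mt toMt ofMt Xt homeoMt)
open H156 (geoA Dk fl co)
open H732 H566

variable {M : Type} [TopologicalSpace M] [ChartedSpace (EV (Dim.m + 1)) M] [IsManifold 𝓘(ℝ, EV (Dim.m + 1)) ∞ M]
  [CompactSpace M] [T2Space M] [ConnectedSpace M] {g : RMetric (EV (Dim.m + 1)) M} [Nonempty (Fr g)]

instance instMSMt (h : Npc (mt g)) (m : M) : MeasurableSpace (Mt (sys g h) m) :=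
  inferInstanceAs (MeasurableSpace (EV (Dim.m + 1)))

instance instBorelMt (h : Npc (mt g)) (m : M) :
    @BorelSpace (Mt (sys g h) m) UniformSpace.toTopologicalSpace (instMSMt h m) :=
  inferInstanceAs (BorelSpace (EV (Dim.m + 1)))

variable (hN : NegCurvature g) (m : M)
  {V : Type} [NormedAddCommGroup V] [NormedSpace ℝ V] [FiniteDimensional ℝ V]
  {j : Mt (sys g (npc_of_neg hN)) m ≃ₜ V} {I : (geoA hN m).In3 j} {r₀ t₁ χ : ℝ}

theorem geoLeaf (hc : H76.Geo.Cst I r₀ t₁ χ) (o : Mt (sys g (npc_of_neg hN)) m) :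
    GeoLeaf (geoA hN m) o (hc.leaf o) where
  em := rfl
  φ := rfl
  rot := rfl
  flip := rfl

/-- the trace of the unstable Riccati solution -/
def Wt {Φ : ℝ → Fr g → Fr g} (D : MDat g Φ) (x : Xt g (npc_of_neg hN) m) : ℝ :=
  D.t ((frm (h := npc_of_neg hN) (m := m) x).ut 0)

theorem reg_Wt (D : MDat g ((horFlows g).Φ 0)) (hc : H76.Geo.Cst I r₀ t₁ χ)
    (o : Mt (sys g (npc_of_neg hN)) m) : Reg (hc.leaf o) (Wt hN m D) := by
  have hO := over_leaf (hN := hN) (m := m) hc o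
  have hΦ : IsHorFlow g (Pi.single 0 1) ((horFlows g).Φ 0) := (horFlows g).hor 0
  have hfr : ∀ x x' : Xt g (npc_of_neg hN) m,
      dist (frm (h := npc_of_neg hN) (m := m) x) (frm (h := npc_of_neg hN) (m := m) x') ≤ 1 * dist x x' := fun x x' => by
    rw [one_mul]; exact PB.dist_f_le x x'
  refine ⟨D.t.continuous.comp ((H892.isBdl_ut g).cont.comp hO.cont), fun γ x => ?_, fun a x => ?_,
    hold_t_over hΦ D hfr, hold_t_flip_over hΦ D hO hfr⟩
  · unfold Wt
    rw [hO.smul]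
  · unfold Wt
    rw [hO.ut_rot]

theorem single_e0 : (EuclideanSpace.single (0 : Fin (Dim.m + 1)) (1 : ℝ)) = H76.e0 := by
  ext i
  refine Fin.cases ?_ (fun i => ?_) i <;> simp [H76.e0]

/-- the volume of the universal cover -/
def volA : Measure (Mt (sys g (npc_of_neg hN)) m) := volM g m

/-- a frame at every point -/
theorem exists_x (q : Mt (sys g (npc_of_neg hN)) m) : ∃ x : Xt g (npc_of_neg hN) m,
    (geoA hN m).ft x = q := (geoA hN m).exists_ft q

theorem act_rt (u : sphere (0 : E3) 1) :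
    Q.H892.act (mo (rt u)) (EuclideanSpace.single 0 1) = (u : EV (Dim.m + 1)) := by
  rw [act_mo, single_e0, rt_e0]

theorem fu_eq (x : Xt g (npc_of_neg hN) m) (u : sphere (0 : E3) 1) :
    fu (geoA hN m) x u = XF.rot (mo (rt u)) x := rfl

theorem aa_eq (D : MDat g ((horFlows g).Φ 0)) (hc : H76.Geo.Cst I r₀ t₁ χ)
    (o : Mt (sys g (npc_of_neg hN)) m) (x : Xt g (npc_of_neg hN) m) (s : ℝ) :
    aa (hc.leaf o) (Wt hN m D) x s =
      ∫ r in (0 : ℝ)..s, D.t (((horFlows g).Φ 0 r x.f).ut 0) := by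
  have hO := over_leaf (hN := hN) (m := m) hc o
  unfold aa
  refine intervalIntegral.integral_congr fun t _ => ?_
  simp only [Wt]
  rw [hO.flow]
  rfl

/-- the polar system at a point -/
def ptS (D : MDat g ((horFlows g).Φ 0)) (hc : H76.Geo.Cst I r₀ t₁ χ)
    (o : Mt (sys g (npc_of_neg hN)) m) {c C : ℝ}
    (hb : ∀ (h : Npc (mt g)) (m : M) (x : XM h m)
      (u : sphere (0 : EV (Dim.m + 1)) 1) (A : H892.OG (Dim.m + 1)), H892.act A (EuclideanSpace.single 0 1) = (u : EV (Dim.m + 1)) →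
      ∀ s : ℝ, 1 ≤ s →
      ENNReal.ofReal (c * Real.exp (∫ r in (0 : ℝ)..s,
        D.t (((horFlows g).Φ 0 r (XF.rot A x).f).ut 0))) ≤ (polV h m x).j u s ∧
      (polV h m x).j u s ≤ ENNReal.ofReal (C * Real.exp (∫ r in (0 : ℝ)..s,
        D.t (((horFlows g).Φ 0 r (XF.rot A x).f).ut 0))))
    (q : Mt (sys g (npc_of_neg hN)) m) :
    PtSys (L := hc.leaf o) (Wt hN m D) (volA hN m) c C q where
  x := (exists_x hN m q).choose
  ft_x := (exists_x hN m q).choose_spec
  P := polV (npc_of_neg hN) m (exists_x hN m q).choose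
  θ := rfl
  Ψ u s := rfl
  R y hy := by
    have h1 := polX_R (npc_of_neg hN) m (exists_x hN m q).choose
    change y ∈ (polX (npc_of_neg hN) m (exists_x hN m q).choose).R
    rw [h1]
    intro h2
    apply hy
    rw [← (exists_x hN m q).choose_spec]
    exact h2
  dir := dirX (npc_of_neg hN) m (exists_x hN m q).choose
  meas_dir := measurable_dirX (npc_of_neg hN) m _
  dir_Ψ u s hs := dirX_Ψ (npc_of_neg hN) m _ u hs
  lo u s hs := by
    rw [aa_eq, fu_eq]
    exact (hb (npc_of_neg hN) m _ u (mo (rt u)) (act_rt u) s hs).1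
  hi u s hs := by
    rw [aa_eq, fu_eq]
    exact (hb (npc_of_neg hN) m _ u (mo (rt u)) (act_rt u) s hs).2

/-- **Absolute continuity: `HopfAC` for the closed 3-manifold.** -/
theorem hopfAC_model (hc : H76.Geo.Cst I r₀ t₁ χ) (o : Mt (sys g (npc_of_neg hN)) m)
    (D : MDat g ((horFlows g).Φ 0)) [MeasurableSpace M] [BorelSpace M]
    {φ : ℝ → UT g → UT g} (hφ : IsGeoFlow g φ) {μ : Measure M} {mL : Measure (UT g)}
    (hμ : IsRiemVol g μ) (hm : IsLiouville g μ mL)
    [MeasurableSpace ((geoA hN m).Bnd o)] [BorelSpace ((geoA hN m).Bnd o)] :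
    ∃ ν₀ : Measure ((geoA hN m).Bnd o), IsFiniteMeasure ν₀ ∧
      HopfAC (hc.leaf o) φ (fun x => (frm (h := npc_of_neg hN) (m := m) x).ut 0) mL ν₀ := by
  have := hm.1
  have := compactSpace_UT g
  have := t2Space_UT g
  have := weaklyRegular_UT mL
  have hO := over_leaf (hN := hN) (m := m) hc o
  have hΦ : IsHorFlow g (Pi.single 0 1) ((horFlows g).Φ 0) := (horFlows g).hor 0
  obtain ⟨c, C, hc0, hC0, hb⟩ := polV_bounds hΦ D
  refine hopfAC_geo (geoLeaf hN m hc o) (reg_Wt hN m D hc o) hc0 hC0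
    (ptS hN m D hc o hb) (vol := volA hN m) (fun γ => mp_deck (npc_of_neg hN) m γ)
    (volM_fin g m) (hO.factor hΦ hφ) mL fun G' hG' hG'ae => ?_
  have h1 := ae_model (npc_of_neg hN) m hμ hm hG'ae
  have h2 : ∀ᵐ q : EV (Dim.m + 1) ∂(volM g m), ∀ x : XM (npc_of_neg hN) m, x.q = q →
      ∀ᵐ u : sphere (0 : EV (Dim.m + 1)) 1 ∂(volume : Measure (EV (Dim.m + 1))).toSphere,
        dirF x.f (u : EV (Dim.m + 1)) ∈ G' := (volM_ac g m).ae_le h1
  change ∀ᵐ q ∂(volM g m), ∀ᵐ u ∂(volume : Measure E3).toSphere,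
    (frm (h := npc_of_neg hN) (m := m) (fu (geoA hN m) (exists_x hN m q).choose u)).ut 0 ∈ G'
  filter_upwards [h2] with q hq
  filter_upwards [hq (exists_x hN m q).choose (exists_x hN m q).choose_spec] with u hu
  rw [dirF_rot (npc_of_neg hN) m _ (act_rt u)] at hu
  exact hu

end Vale.Agent.P207.N4.H348
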